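import Mathlib

/-!
# P130: generators of finite Lebesgue spectrum have non-local product tables

If finitely many mean-zero functions have orbits forming an orthonormal family, the products
`f a * conj (f b ∘ T ^ n)` cannot all be combinations of `1` and of orbit points at distance
`O(|n| + 1)`. Otherwise far apart windows are exactly independent, which puts `m ^ 2` orthonormal
products in a space of dimension `O(m)`.
-/

namespace Vale.Agent.Results.P130.NoLocalGenerator

open MeasureTheory Finset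
open scoped ComplexConjugate InnerProductSpace

variable {X : Type*} [MeasurableSpace X] {μ : Measure X}

theorem preserving_zpow {T : X ≃ᵐ X} (hT : MeasurePreserving T μ μ) (n : ℤ) :
    MeasurePreserving (⇑(T.toEquiv ^ n : Equiv.Perm X)) μ μ := by
  induction n using Int.induction_on with
  | zero => simpa using MeasurePreserving.id μ
  | succ n ih =>
    rw [zpow_add_one, Equiv.Perm.coe_mul]
    exact ih.comp hT
  | pred n ih =>
    rw [zpow_sub_one, Equiv.Perm.coe_mul]
    exact ih.comp (hT.symm T)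

theorem inner_eq_mul_of_mem_span {H : Type*} [NormedAddCommGroup H] [InnerProductSpace ℂ H]
    (o : H) {A B : Set H} {x y : H} (hx : x ∈ Submodule.span ℂ A) (hy : y ∈ Submodule.span ℂ B)
    (h : ∀ a ∈ A, ∀ b ∈ B, ⟪a, b⟫_ℂ = ⟪a, o⟫_ℂ * ⟪o, b⟫_ℂ) :
    ⟪x, y⟫_ℂ = ⟪x, o⟫_ℂ * ⟪o, y⟫_ℂ := by
  induction hx using Submodule.span_induction with
  | mem a ha =>
    induction hy using Submodule.span_induction with
    | mem b hb => exact h a ha b hb
    | zero => simp
    | add b b' _ _ h1 h2 => rw [inner_add_right, inner_add_right, h1, h2]; ring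
    | smul c b _ h1 => rw [inner_smul_right, inner_smul_right, h1]; ring
  | zero => simp
  | add a a' _ _ h1 h2 => rw [inner_add_left, inner_add_left, h1, h2]; ring
  | smul c a _ h1 => rw [inner_smul_left, inner_smul_left, h1]; ring

/-- No finite family of functions with orthonormal orbits has a local product table. -/
theorem result :
    ∀ (X : Type) [MeasurableSpace X] (μ : Measure X) [IsProbabilityMeasure μ] (T : X ≃ᵐ X),
      MeasurePreserving T μ μ →
      ∀ (k : ℕ) (f : Fin k → X → ℂ), 0 < k → (∀ a, MemLp (f a) 2 μ) → (∀ a, ∫ x, f a x ∂μ = 0) →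
      (∀ (a b : Fin k) (n : ℤ), ∫ x, f a x * conj (f b ((T.toEquiv ^ n : Equiv.Perm X) x)) ∂μ
        = if a = b ∧ n = 0 then 1 else 0) →
      ∀ C : ℕ, ¬ ∀ (a b : Fin k) (n : ℤ), ∃ (c₀ : ℂ) (c : ℤ → Fin k → ℂ),
        (fun x => f a x * conj (f b ((T.toEquiv ^ n : Equiv.Perm X) x))) =ᵐ[μ] fun x =>
          c₀ + ∑ j ∈ Finset.Icc (-((C : ℤ) * (|n| + 1))) ((C : ℤ) * (|n| + 1)),
            ∑ e, c j e * f e ((T.toEquiv ^ j : Equiv.Perm X) x) := by
  intro X _ μ _ T hT k f hk hf hmean horth C hloc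
  classical
  let P : ℤ → X → X := fun n => ⇑(T.toEquiv ^ n : Equiv.Perm X)
  have hP : ∀ n, MeasurePreserving (P n) μ μ := preserving_zpow hT
  have hPadd : ∀ m n x, P m (P n x) = P (m + n) x := fun m n x => by
    simp only [P, zpow_add, Equiv.Perm.mul_apply]
  let g : Fin k → ℤ → X → ℂ := fun a i x => f a (P i x)
  have hg : ∀ a i, MemLp (g a i) 2 μ := fun a i => (hf a).comp_measurePreserving (hP i)
  let v : Fin k → ℤ → Lp ℂ 2 μ := fun a i => (hg a i).toLp _
  let o : Lp ℂ 2 μ := (memLp_const (1 : ℂ)).toLp _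
  let w : Option (Fin k × ℤ) → Lp ℂ 2 μ := fun t => t.elim o fun p => v p.1 p.2
  have hcomp : ∀ (u : X → ℂ) (i : ℤ), AEStronglyMeasurable u μ →
      ∫ x, u (P i x) ∂μ = ∫ x, u x ∂μ := fun u i hu => by
    have h := integral_map (μ := μ) (hP i).aemeasurable (f := u)
      (by rw [(hP i).map_eq]; exact hu)
    rw [(hP i).map_eq] at h
    exact h.symm
  have hinner : ∀ {u u' : X → ℂ} (hu : MemLp u 2 μ) (hu' : MemLp u' 2 μ),
      ⟪hu.toLp u, hu'.toLp u'⟫_ℂ = ∫ x, u' x * conj (u x) ∂μ := fun hu hu' => by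
    rw [L2.inner_def]
    refine integral_congr_ae ?_
    filter_upwards [hu.coeFn_toLp, hu'.coeFn_toLp] with x h1 h2
    rw [h1, h2, RCLike.inner_apply]
  have horth' : ∀ a b i j, ∫ x, g a i x * conj (g b j x) ∂μ
      = if a = b ∧ i = j then 1 else 0 := fun a b i j => by
    have h : ∀ x, g a i x * conj (g b j x)
        = (fun y => f a y * conj (g b (j - i) y)) (P i x) := fun x => by
      simp [g, hPadd]
    refine (integral_congr_ae (ae_of_all _ h)).trans ((hcomp _ i ((hf a).1.mul
      (RCLike.continuous_conj.comp_aestronglyMeasurable (hg b (j - i)).1))).trans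
      ((horth a b (j - i)).trans ?_))
    congr 1
    simp only [eq_iff_iff, and_congr_right_iff]
    intro _
    constructor <;> intro <;> omega
  -- the window spaces
  let S : Finset ℤ → Submodule ℂ (Lp ℂ 2 μ) := fun I => Submodule.span ℂ
    (w '' {t : Option (Fin k × ℤ) | ∀ p ∈ t, p.2 ∈ I})
  have hmem : ∀ a b (i j lo hi : ℤ), lo ≤ i - C * (|j - i| + 1) → i + C * (|j - i| + 1) ≤ hi →
      ∃ h : MemLp (fun x => g a i x * conj (g b j x)) 2 μ,
        h.toLp _ ∈ S (Finset.Icc lo hi) := fun a b i j lo hi hlo hhi => by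
    obtain ⟨c₀, c, hc⟩ := hloc a b (j - i)
    set B : ℤ := (C : ℤ) * (|j - i| + 1)
    have hc' : (fun x => g a i x * conj (g b j x)) =ᵐ[μ] fun x =>
        c₀ + ∑ l ∈ Finset.Icc (-B) B, ∑ e, c l e * g e (l + i) x := by
      refine Filter.EventuallyEq.trans ?_ (((hP i).quasiMeasurePreserving.ae_eq hc).trans ?_)
      · filter_upwards with x
        simp only [g, Function.comp_apply]
        rw [show (T.toEquiv ^ (j - i) : Equiv.Perm X) (P i x) = P (j - i) (P i x) from rfl, hPadd,
          sub_add_cancel]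
      · filter_upwards with x
        simp only [g, Function.comp_apply]
        refine congrArg _ (Finset.sum_congr rfl fun l _ => Finset.sum_congr rfl fun e _ => ?_)
        rw [show (T.toEquiv ^ l : Equiv.Perm X) (P i x) = P l (P i x) from rfl, hPadd]
    set z : Lp ℂ 2 μ := c₀ • o + ∑ l ∈ Finset.Icc (-B) B, ∑ e, c l e • v e (l + i) with hz
    have hzc : ⇑z =ᵐ[μ] fun x => g a i x * conj (g b j x) := by
      refine Filter.EventuallyEq.trans ?_ hc'.symm
      have hs : ∀ l, ∀ᵐ x ∂μ, ∀ e, (c l e • v e (l + i) : Lp ℂ 2 μ) x = c l e * g e (l + i) x :=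
        fun l => ae_all_iff.2 fun e => by
          filter_upwards [Lp.coeFn_smul (c l e) (v e (l + i)), (hg e (l + i)).coeFn_toLp]
            with x h1 h2
          rw [h1, Pi.smul_apply, h2, smul_eq_mul]
      filter_upwards [Lp.coeFn_add (c₀ • o) (∑ l ∈ Finset.Icc (-B) B, ∑ e, c l e • v e (l + i)),
        Lp.coeFn_smul c₀ o, (memLp_const (μ := μ) (p := 2) (1 : ℂ)).coeFn_toLp,
        Lp.coeFn_finsetSum (Finset.Icc (-B) B) fun l => ∑ e, c l e • v e (l + i),
        ae_all_iff.2 (fun l => Lp.coeFn_finsetSum univ fun e => c l e • v e (l + i)),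
        ae_all_iff.2 hs] with x h1 h2 h3 h4 h5 h6
      rw [hz, h1, Pi.add_apply, h2, Pi.smul_apply, h3, h4, smul_eq_mul, mul_one]
      simp only [Finset.sum_apply]
      refine congrArg _ (Finset.sum_congr rfl fun l _ => ?_)
      rw [h5 l, Finset.sum_apply]
      exact Finset.sum_congr rfl fun e _ => h6 l e
    refine ⟨(Lp.memLp z).ae_eq hzc, ?_⟩
    have hzeq : ((Lp.memLp z).ae_eq hzc).toLp _ = z :=
      Lp.ext (((Lp.memLp z).ae_eq hzc).coeFn_toLp.trans hzc.symm)
    rw [hzeq]
    refine add_mem (Submodule.smul_mem _ _ (Submodule.subset_span ⟨none, by simp, rfl⟩))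
      (sum_mem fun l hl => sum_mem fun e _ => Submodule.smul_mem _ _
        (Submodule.subset_span ⟨some (e, l + i), ?_, rfl⟩))
    intro p hp
    simp only [Option.mem_def, Option.some.injEq] at hp
    subst hp
    simp only [Finset.mem_Icc] at hl ⊢
    omega
  -- the parameters
  set D : ℕ := 10 * (C + 1) * (C + 1) with hD
  set m : ℕ := 4 * k * D + 4 with hm
  set L : ℤ := C * m + m with hL
  set N : ℤ := 2 * L + 1 with hN
  set L' : ℤ := ((D * m : ℕ) : ℤ) with hL'
  have hCm : (0 : ℤ) ≤ (C : ℤ) * m := by positivity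
  let a₀ : Fin k := ⟨0, hk⟩
  have hprod : ∀ p : Fin m × Fin m, ∃ h : MemLp (fun x => g a₀ p.1 x * conj (g a₀ (p.2 + N) x)) 2 μ,
      h.toLp _ ∈ S (Finset.Icc (-L') L') := fun p => by
    have h1 := p.1.isLt
    have h2 := p.2.isLt
    have hb : |((p.2 : ℕ) : ℤ) + N - (p.1 : ℕ)| + 1 ≤ 2 * L + 2 + m := by
      rw [abs_of_nonneg (by omega)]
      omega
    have hb' := mul_le_mul_of_nonneg_left hb (by positivity : (0 : ℤ) ≤ C)
    have hb'' : (C : ℤ) * (2 * L + 2 + m) + m ≤ L' := by
      have : (1 : ℤ) ≤ m := by omega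
      simp only [hL, hL', hD, Nat.cast_mul, Nat.cast_add, Nat.cast_ofNat, Nat.cast_one]
      nlinarith [mul_nonneg (Int.natCast_nonneg C) (sub_nonneg.2 this)]
    exact hmem a₀ a₀ _ _ _ _ (by omega) (by omega)
  choose hE hES using hprod
  let E : Fin m × Fin m → Lp ℂ 2 μ := fun p => (hE p).toLp _
  have hwin : ∀ (s : ℤ) (i i' : Fin m), ∃ h : MemLp
      (fun x => g a₀ (i + s) x * conj (g a₀ (i' + s) x)) 2 μ,
      h.toLp _ ∈ S (Finset.Icc (s - L) (s + L)) := fun s i i' => by
    have h1 := i.isLt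
    have h2 := i'.isLt
    have hb : |((i' : ℕ) : ℤ) + s - ((i : ℕ) + s)| + 1 ≤ m := by
      have := abs_sub_lt_iff.2 (⟨by omega, by omega⟩ :
        ((i' : ℕ) : ℤ) + s - ((i : ℕ) + s) < m ∧ ((i : ℕ) : ℤ) + s - ((i' : ℕ) + s) < m)
      omega
    have hb' := mul_le_mul_of_nonneg_left hb (by positivity : (0 : ℤ) ≤ C)
    exact hmem a₀ a₀ _ _ _ _ (by omega) (by omega)
  have horthE : Orthonormal ℂ E := by
    rw [orthonormal_iff_ite]
    rintro ⟨i, J⟩ ⟨i', J'⟩
    obtain ⟨hp, hpS⟩ := hwin 0 i i'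
    obtain ⟨hq, hqS⟩ := hwin N J J'
    have e1 : ⟪E (i, J), E (i', J')⟫_ℂ = ⟪hp.toLp _, hq.toLp _⟫_ℂ := by
      simp only [E]
      rw [hinner, hinner]
      refine integral_congr_ae (ae_of_all _ fun x => ?_)
      simp only [map_mul, Complex.conj_conj, add_zero]
      ring
    rw [e1, inner_eq_mul_of_mem_span o hpS hqS ?_]
    · simp only [o]
      rw [hinner, hinner]
      simp only [map_mul, map_one, Complex.conj_conj, mul_one, one_mul]
      have e2 : ∫ x, conj (g a₀ ((i : ℤ) + 0) x) * g a₀ ((i' : ℤ) + 0) x ∂μ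
          = if a₀ = a₀ ∧ ((i' : ℕ) : ℤ) + 0 = (i : ℤ) + 0 then 1 else 0 := by
        rw [← horth']
        simp only [mul_comm]
      rw [e2, horth']
      simp only [Prod.mk.injEq, Fin.ext_iff]
      rcases eq_or_ne (i : ℕ) i' with h1 | h1
      · by_cases h2 : (J : ℕ) = J' <;> simp [h1, h2]
      · by_cases h2 : (J : ℕ) = J' <;> simp [h1, Ne.symm h1, h2]
    · rintro _ ⟨s, hs, rfl⟩ _ ⟨t, ht, rfl⟩
      have hvo : ∀ a l, ⟪v a l, o⟫_ℂ = 0 := fun a l => by
        simp only [v, o]
        rw [hinner]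
        simp only [one_mul]
        rw [integral_conj, hcomp (f a) l (hf a).1, hmean, map_zero]
      have hoo : ⟪o, o⟫_ℂ = 1 := by
        simp only [o]
        rw [hinner]
        simp
      rcases s with _ | ⟨a, l⟩ <;> rcases t with _ | ⟨b, l'⟩
      · simp only [w, Option.elim_none, hoo, one_mul]
      · simp only [w, Option.elim_none, hoo, one_mul]
      · simp [w, hvo]
      · simp only [w, Option.elim_some]
        rw [hvo, zero_mul]
        simp only [v]
        rw [hinner, horth', if_neg]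
        have hl := Finset.mem_Icc.1 (hs (a, l) rfl)
        have hl' := Finset.mem_Icc.1 (ht (b, l') rfl)
        simp only [zero_sub, zero_add] at hl
        intro h
        have := h.2
        omega
  -- dimension count
  let G : Finset (Lp ℂ 2 μ) := insert o ((univ ×ˢ Finset.Icc (-L') L').image fun p => v p.1 p.2)
  have hsub : S (Finset.Icc (-L') L') ≤ Submodule.span ℂ (G : Set (Lp ℂ 2 μ)) := by
    refine Submodule.span_mono ?_
    rintro _ ⟨t, ht, rfl⟩
    rcases t with _ | p
    · simp [G, w]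
    · simp only [G, w, Finset.coe_insert, Finset.coe_image, Option.elim_some]
      exact Or.inr ⟨p, by simpa using Finset.mem_Icc.1 (ht p rfl), rfl⟩
  have hcard : G.card ≤ k * (2 * (D * m) + 1) + 1 := by
    refine (Finset.card_insert_le _ _).trans (Nat.add_le_add_right (Finset.card_image_le.trans ?_) 1)
    rw [Finset.card_product, Finset.card_univ, Fintype.card_fin, Int.card_Icc]
    exact Nat.mul_le_mul_left _ (by omega)
  let E' : Fin m × Fin m → Submodule.span ℂ (G : Set (Lp ℂ 2 μ)) := fun p => ⟨E p, hsub (hES p)⟩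
  have hli : LinearIndependent ℂ E' :=
    LinearIndependent.of_comp (Submodule.subtype _) horthE.linearIndependent
  have h := hli.fintype_card_le_finrank.trans ((finrank_span_finset_le_card G).trans hcard)
  simp only [Fintype.card_prod, Fintype.card_fin] at h
  have : k * (2 * (D * m) + 1) + 1 < m * m := by
    have : (4 * k * D + 4) * m = m * m := by rw [← hm]
    have : k * 1 ≤ k * (D * m) := Nat.mul_le_mul_left _ (Nat.one_le_iff_ne_zero.2 (by positivity))
    nlinarith
  omega

end Vale.Agent.Results.P130.NoLocalGenerator
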