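import Mathlib
import Vale.Agent.P130.Full.Final

/-!
# P130: a transformation with simple Lebesgue spectrum

Some invertible probability-preserving transformation of a standard nonatomic space has simple
Lebesgue spectrum: the orbit of one mean-zero function is an orthonormal basis of the mean-zero
square-integrable functions.
-/

namespace Vale.Agent.Results.P130.SimpleLebesgueSpectrum

open MeasureTheory
open scoped ComplexConjugate

/-- Banach's simple Lebesgue spectrum problem has an affirmative answer. -/
theorem result :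
    ∃ (X : Type) (_ : MeasurableSpace X) (_ : StandardBorelSpace X) (μ : Measure X),
      IsProbabilityMeasure μ ∧ (∀ x : X, μ {x} = 0) ∧
      ∃ (T : X ≃ᵐ X) (f : X → ℂ), MeasurePreserving T μ μ ∧ MemLp f 2 μ ∧ ∫ x, f x ∂μ = 0 ∧
        (∀ n : ℤ, ∫ x, f ((T.toEquiv ^ n : Equiv.Perm X) x) * conj (f x) ∂μ =
          if n = 0 then 1 else 0) ∧
        ∀ g : X → ℂ, MemLp g 2 μ → ∫ x, g x ∂μ = 0 →
          (∀ n : ℤ, ∫ x, g x * conj (f ((T.toEquiv ^ n : Equiv.Perm X) x)) ∂μ = 0) →
            g =ᵐ[μ] 0 :=
  Vale.Agent.P130.Full.simpleLebesgue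

end Vale.Agent.Results.P130.SimpleLebesgueSpectrum
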